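import Vale.Agent.P049.TS.R379.V2num
import Vale.Agent.P049.TS.Asm.EnvB
import Vale.Agent.P049.TS.Asm.RateF
import Vale.Agent.P049.TS.Shell.Sign2

/-!
The rate lemma of `g5B` (`V₂` in the phase IIIb).
-/

set_option linter.unusedSectionVars false
set_option exponentiation.threshold 3000

namespace Vale.Agent.P049.TS.R379

open Matrix Finset
open Vale.Agent.P049.TS.A480 Vale.Agent.P049.TS.Asm

variable {ι : Type*} [Fintype ι] [DecidableEq ι]
variable {n d k : ℕ} {F : Finset ι} {Z Zp Zm : Matrix ι ι ℝ} {forb : ι → ι → Prop} {ε : ℝ}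

/-- abbreviation: the monomials of the phase IIIb -/
noncomputable abbrev EB (n d k : ℕ) (y1 y2 : ℤ) : ℝ := Asm.Em (LL n) (XX n d k) 530 680 y1 y2

theorem one_le_EB (R : Rg (LL n) (XX n d k) 530 680) {y1 y2 : ℤ} (h1 : 0 ≤ y1) (h2 : 0 ≤ y2) :
    1 ≤ EB n d k y1 y2 := by
  rw [← Em_zero (LL n) (XX n d k) 530 680]
  exact Em_le R h1 h2

noncomputable def rB5 (n d k : ℕ) : ℝ := 2 * EB n d k 530 692
noncomputable def zB5 (n d k : ℕ) : ℝ := 1 + sB n d k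
noncomputable def nB5 (n d k : ℕ) : ℝ := EB n d k 1060 1360
noncomputable def GB5 (n d k : ℕ) : ℝ := (d + 26) * EB n d k 530 692
noncomputable def yB5 (n d k : ℕ) : ℝ := 2 * EB n d k 656 1143
noncomputable def tauB5 (n d k : ℕ) : ℝ := Nk n d k / (sR n : ℝ) ^ 295

theorem mu_facts' (hd : 3 ≤ d) : 0 < (√((d : ℝ) - 1))⁻¹ ∧ (√((d : ℝ) - 1))⁻¹ < 1 ∧
    (√((d : ℝ) - 1))⁻¹ ≤ 3 / 4 := by
  have h1 := mu_facts hd
  refine ⟨h1.1, h1.2.1, ?_⟩
  have := mu_le hd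
  linarith

theorem zB5_le (R : Rg (LL n) (XX n d k) 530 680) : zB5 n d k ≤ 2 * EB n d k 0 212 := by
  unfold zB5
  rw [sB_III]
  have h1 := one_le_EB (n := n) (d := d) (k := k) R (y1 := 0) (y2 := 212) le_rfl (by norm_num)
  have h2 : Asm.Em (LL n) (XX n d k) 530 680 (-88) 212 ≤ EB n d k 0 212 :=
    Em_le R (by norm_num) le_rfl
  linarith

theorem EnvB.pr (hσ : 2000 ≤ sR n) (h : EnvB n d k F Zp Zm forb) (hs : Sgn Zp Zm ε Z) :
    Pr F Z (bB n d k) (tB n d k) (sB n d k) (vB n d k) (wB n d k) (rB5 n d k) (zB5 n d k)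
      (nB5 n d k) where
  c := (h.oneB hs).ctl
  r0 := mul_nonneg (by norm_num) (Em_pos _ _ _ _ _ _).le
  hr := by
    have R := rgB hσ h.k_ge h.k_lt
    unfold rB5
    rw [vB_III, mul_pow, Em_pow]
    have h1 := one_le_EB (n := n) (d := d) (k := k) R (y1 := 1060) (y2 := 1384) (by norm_num)
      (by norm_num)
    norm_num
    linarith
  hz := le_rfl
  n0 := (Em_pos _ _ _ _ _ _).le
  hn := by
    unfold nB5
    rw [Em_pow, h.card, Nk_III (NkB_pos h.k_lt)]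
    norm_num
  ent := by
    have hm := mu_facts' h.d3
    refine (h.oneB hs).sg.hent ?_ hm.1 hm.2.2 ?_
    · rcases hs with hs | hs
      · exact Or.inl hs.1
      · exact Or.inr hs.1
    · have h1 : (16 : ℝ) ≤ F.card := by
        rw [h.card]
        have h2 := Nk_gt4 h.k_lt
        have h3 := const_mul_pow_le (c := 16) (sR_one hσ) (by linarith [sR_ge hσ])
          (show 0 < 530 by norm_num)
        simp only [pow_zero, mul_one] at h3
        linarith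
      exact_mod_cast h1

theorem GB5_sq (R : Rg (LL n) (XX n d k) 530 680) :
    1 + (d : ℝ) * (d + 1) + 128 * rB5 n d k ^ 2 + 128 * sB n d k ^ 4 ≤ GB5 n d k ^ 2 := by
  unfold rB5 GB5
  rw [sB_III, mul_pow, mul_pow, Em_pow, Em_pow]
  norm_num
  have h1 := one_le_EB (n := n) (d := d) (k := k) R (y1 := 1060) (y2 := 1384) (by norm_num)
      (by norm_num)
  have h2 : Asm.Em (LL n) (XX n d k) 530 680 (-352) 848 ≤ EB n d k 1060 1384 :=
    Em_le R (by norm_num) (by norm_num)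
  have hd : (0 : ℝ) ≤ d := Nat.cast_nonneg d
  have h3 : (1 + (d : ℝ) * (d + 1)) * 1 ≤ (1 + (d : ℝ) * (d + 1)) * EB n d k 1060 1384 :=
    mul_le_mul_of_nonneg_left h1 (by positivity)
  have h4 : 0 ≤ (d : ℝ) * EB n d k 1060 1384 := mul_nonneg hd (by linarith)
  have h5 : ((d : ℝ) + 26) ^ 2 * EB n d k 1060 1384 =
      (1 + (d : ℝ) * (d + 1)) * EB n d k 1060 1384 + 51 * (d * EB n d k 1060 1384) +
        675 * EB n d k 1060 1384 := by ring
  linarith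

theorem yB5_sq (R : Rg (LL n) (XX n d k) 530 680) :
    zB5 n d k * rB5 n d k * wB n d k ≤ yB5 n d k ^ 2 := by
  have h1 := zB5_le (n := n) (d := d) (k := k) R
  have h2 : 0 ≤ rB5 n d k * wB n d k :=
    mul_nonneg (mul_nonneg (by norm_num) (Em_pos _ _ _ _ _ _).le) (wB_nonneg _ _ _)
  have h3 : zB5 n d k * (rB5 n d k * wB n d k) ≤
      2 * EB n d k 0 212 * (rB5 n d k * wB n d k) := mul_le_mul_of_nonneg_right h1 h2
  have h4 : 2 * EB n d k 0 212 * (rB5 n d k * wB n d k) = yB5 n d k ^ 2 := by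
    unfold rB5 yB5
    rw [wB_III, mul_pow, Em_pow]
    have e1 := Em_mul (LL n) (XX n d k) 530 680 530 692 782 1382
    have e2 := Em_mul (LL n) (XX n d k) 530 680 0 212 1312 2074
    norm_num at e1 e2 ⊢
    rw [← e2, ← e1]
    ring
  rw [mul_assoc]
  linarith

theorem tauB5_Em (hσ : 2000 ≤ sR n) (hN : 0 < Nk n d k) :
    tauB5 n d k = EB n d k 940 1540 := by
  have hs0 := sR_pos hσ
  unfold tauB5
  rw [div_eq_iff (by positivity), sR_pow_Em hσ (X := XX n d k) (show (530 : ℝ) < 680 by norm_num)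
    295, Em_mul, Nk_III hN]
  norm_num

theorem invNk_III (hN : 0 < Nk n d k) : (Nk n d k)⁻¹ = EB n d k (-2120) (-2720) := by
  refine inv_eq_of_mul_eq_one_right ?_
  rw [Nk_III hN, Em_mul]
  norm_num
  exact Em_zero _ _ _ _

/-- the constants of the environment -/
noncomputable def kapB5 (d : ℕ) : ℕ → ℝ :=
  env13 0 2 2 1 2 1 2 2 1 ((d : ℝ) + 26) 2 ((d : ℝ) + 25) 1 1

theorem kapB5_nonneg (d : ℕ) (i : ℕ) : 0 ≤ kapB5 d i := by
  have hd : (0 : ℝ) ≤ d := Nat.cast_nonneg d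
  unfold kapB5
  rcases i with _ | _ | _ | _ | _ | _ | _ | _ | _ | _ | _ | _ | _ | i <;> simp only [env13] <;>
    linarith

/-- the environment -/
noncomputable def rhoB5 (n d k : ℕ) : ℕ → ℝ :=
  env13 0 (bB n d k) (tB n d k) (sB n d k) (vB n d k) (wB n d k) (rB5 n d k) (zB5 n d k)
    (nB5 n d k) (GB5 n d k) (yB5 n d k) (eB n d k) (tauB5 n d k) (Nk n d k)⁻¹

theorem rhoB5_nonneg (hσ : 2000 ≤ sR n) (hN : 0 < Nk n d k) (i : ℕ) : 0 ≤ rhoB5 n d k i := by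
  have hs0 := sR_pos hσ
  have hE : ∀ y1 y2, 0 ≤ EB n d k y1 y2 := fun _ _ => (Em_pos _ _ _ _ _ _).le
  have hd : (0 : ℝ) ≤ d := Nat.cast_nonneg d
  unfold rhoB5
  rcases i with _ | _ | _ | _ | _ | _ | _ | _ | _ | _ | _ | _ | _ | i
  · exact bB_nonneg _ _ _
  · exact tB_nonneg _ _ _
  · exact sB_nonneg _ _ _
  · exact vB_nonneg _ _ _
  · exact wB_nonneg _ _ _
  · exact mul_nonneg (by norm_num) (hE _ _)
  · show 0 ≤ 1 + sB n d k
    have := sB_nonneg n d k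
    linarith
  · exact hE _ _
  · exact mul_nonneg (by linarith) (hE _ _)
  · exact mul_nonneg (by norm_num) (hE _ _)
  · exact eB_nonneg _ _ _
  · show 0 ≤ Nk n d k / (sR n : ℝ) ^ 295
    positivity
  · exact inv_nonneg.2 hN.le
  · exact le_rfl

theorem rhoB5_le (hσ : 2000 ≤ sR n) (hN : 0 < Nk n d k) (R : Rg (LL n) (XX n d k) 530 680)
    (i : ℕ) : rhoB5 n d k i ≤ kapB5 d i * EB n d k (yB1 i) (yB2 i) := by
  rcases i with _ | _ | _ | _ | _ | _ | _ | _ | _ | _ | _ | _ | _ | i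
  · show bB n d k ≤ 2 * EB n d k 727 1327; rw [bB_III]
  · show tB n d k ≤ 2 * EB n d k 752 1352; rw [tB_III]
  · show sB n d k ≤ 1 * EB n d k (-88) 212; rw [sB_III, one_mul]
  · show vB n d k ≤ 2 * EB n d k 1060 1384; rw [vB_III]
  · show wB n d k ≤ 1 * EB n d k 782 1382; rw [wB_III, one_mul]
  · show rB5 n d k ≤ 2 * EB n d k 530 692; exact le_rfl
  · exact zB5_le R
  · show nB5 n d k ≤ 1 * EB n d k 1060 1360; rw [one_mul]; exact le_rfl
  · show GB5 n d k ≤ (d + 26) * EB n d k 530 692; exact le_rfl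
  · show yB5 n d k ≤ 2 * EB n d k 656 1143; exact le_rfl
  · show eB n d k ≤ (d + 25) * EB n d k 1060 1360; rw [eB_III]
  · show tauB5 n d k ≤ 1 * EB n d k 940 1540; rw [one_mul, tauB5_Em hσ hN]
  · show (Nk n d k)⁻¹ ≤ 1 * EB n d k (-2120) (-2720); rw [one_mul, invNk_III hN]
  · show (0 : ℝ) ≤ 0 * _; rw [zero_mul]

/-- the total error -/
noncomputable def totB5 (n d k : ℕ) : ℝ :=
  4 * (tB n d k ^ 2 * wB n d k ^ 2) +
    15 / 4 * (QW (tB n d k) (sB n d k) (wB n d k) (Nk n d k)⁻¹ * vB n d k ^ 2) +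
    Rest (bB n d k) (tB n d k) (sB n d k) (vB n d k) (wB n d k) (rB5 n d k) (zB5 n d k)
      (nB5 n d k) (GB5 n d k) (yB5 n d k) (eB n d k) (tauB5 n d k)

theorem totB5_le (hσ : 2000 ≤ sR n) (hN : 0 < Nk n d k) (R : Rg (LL n) (XX n d k) 530 680) :
    0 ≤ totB5 n d k ∧ totB5 n d k ≤ xErrB.cs (kapB5 d) * EB n d k 3680 5480 := by
  have h1 := ErrB_ev (bB n d k) (tB n d k) (sB n d k) (vB n d k) (wB n d k) (rB5 n d k)
    (zB5 n d k) (nB5 n d k) (GB5 n d k) (yB5 n d k) (eB n d k) (tauB5 n d k) (Nk n d k)⁻¹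
  have h2 := xErrB.bound R yB1 yB2 xErrB_y1 xErrB_y2 (rhoB5_nonneg hσ hN) (kapB5_nonneg d)
    (rhoB5_le hσ hN R)
  have h3 := Ex.ev_nonneg (rhoB5_nonneg (n := n) (d := d) (k := k) hσ hN) xErrB
  unfold rhoB5 at h2 h3
  unfold totB5
  rw [← h1] at h2 h3
  constructor
  · linarith
  · linarith

theorem drift_B5 (hσ : 2000 ≤ sR n) (h : EnvB n d k F Zp Zm forb) (hs : Sgn Zp Zm ε Z) :
    ∑ p ∈ adm F forb Zp Zm, (gV2 ((F.erase p.1).erase p.2) (upd Z p.1 p.2) - gV2 F Z) ≤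
      -4 * Nk n d k * gV2 F Z + totB5 n d k := by
  have hN := NkB_pos h.k_lt
  have R := rgB hσ h.k_ge h.k_lt
  have hO := h.oneB hs
  have hε : ε = 1 ∨ ε = -1 := by
    rcases hs with hs | hs
    · exact Or.inl hs.1
    · exact Or.inr hs.1
  have hm := mu_facts' h.d3
  have hρ := rhoB_pos (n := n) (d := d) (k := k) (by omega) hN
  have hpp : Sgn Zp Zm 1 Zp := Or.inl ⟨rfl, rfl⟩
  have hmm : Sgn Zp Zm (-1) Zm := Or.inr ⟨rfl, rfl⟩
  have h1 := V2_up (EnvB.pr hσ h hpp) (EnvB.pr hσ h hmm) h.fo (hs.imp (fun h => h.2) fun h => h.2)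
    (G := GB5 n d k) (mul_nonneg (by positivity) (Em_pos _ _ _ _ _ _).le) (GB5_sq R)
    (eB_nonneg n d k) (h.card_compl_le hσ) (y := yB5 n d k)
    (mul_nonneg (by norm_num) (Em_pos _ _ _ _ _ _).le) (yB5_sq R) hO.sg hε hm.1.le hm.2.1.le
    (by linarith [hO.T1_neg]) (τ := tauB5 n d k) hO.T1_abs
  have h2 := Q4_le_QW hO.ctl hO.sg hε hm.1 hm.2.1
  rw [h.card] at h1 h2
  have hVs0 : 0 ≤ Vs F Z := Vs_nonneg F Z
  have hVs : Vs F Z ≤ vB n d k ^ 2 := hO.V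
  have hQ0 : 0 ≤ Q4 F Z := Q4_nonneg F Z
  have h3 : Q4 F Z * Vs F Z ≤ QW (tB n d k) (sB n d k) (wB n d k) (Nk n d k)⁻¹ * vB n d k ^ 2 :=
    mul_le_mul h2 hVs hVs0 (hQ0.trans h2)
  have hg0 : 0 ≤ gV2 F Z := gV2_nonneg F Z
  have hg1 : gV2 F Z ≤ wB n d k ^ 2 := hO.W
  have hT0 : 0 ≤ (Z ^ 2).trace := by linarith [hO.T2_ge]
  have h4 : (Z ^ 2).trace * gV2 F Z ≤ tB n d k ^ 2 * wB n d k ^ 2 :=
    mul_le_mul hO.T2 hg1 hg0 (sq_nonneg _)
  have h5 : 0 ≤ Nk n d k * gV2 F Z := mul_nonneg hN.le hg0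
  unfold totB5 Rest
  linarith

/-- **The rate of `V₂` in the phase IIIb.** -/
theorem rate_B5 (d : ℕ) (_hd : 3 ≤ d) : ∃ C : ℝ, ∃ s0 : ℕ, ∀ (ι : Type*) [Fintype ι]
    [DecidableEq ι] (n k : ℕ) (F : Finset ι) (Zp Zm : Matrix ι ι ℝ) (forb : ι → ι → Prop),
    s0 ≤ sR n → EnvB n d k F Zp Zm forb → ∀ (ε : ℝ) (Z : Matrix ι ι ℝ), Sgn Zp Zm ε Z →
    ∑ p ∈ adm F forb Zp Zm,
      (g5B n d (k + 1) ((F.erase p.1).erase p.2) (upd Z p.1 p.2) - g5B n d k F Z) ≤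
      C * rT n d k := by
  refine ⟨4 * xErrB.cs (kapB5 d), 2000, fun ι _ _ n k F Zp Zm forb hσ h ε Z hs => ?_⟩
  have hN := NkB_pos h.k_lt
  have hs0 := sR_pos hσ
  have R := rgB hσ h.k_ge h.k_lt
  have h4 := four_le_NkB hσ h.k_lt
  obtain ⟨t0, t1⟩ := totB5_le (d := d) hσ hN R
  have hA : (((adm F forb Zp Zm).card : ℕ) : ℝ) ≤ Nk n d k ^ 2 := by
    have := Finset.card_le_card (adm_subset F forb Zp Zm)
    rw [Finset.card_product] at this
    have h6 : ((adm F forb Zp Zm).card : ℝ) ≤ (F.card : ℝ) * F.card := by exact_mod_cast this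
    rw [h.card] at h6
    linarith [sq (Nk n d k)]
  have h1 := lin_rate_sq (adm F forb Zp Zm)
    (fun p => gV2 ((F.erase p.1).erase p.2) (upd Z p.1 p.2)) (P := gV2 F Z) (N := Nk n d k)
    (s := (sR n : ℝ) ^ 669) h4 (by positivity) (gV2_nonneg F Z) hA t0 (drift_B5 hσ h hs)
  have e1 : ∑ p ∈ adm F forb Zp Zm,
      (g5B n d (k + 1) ((F.erase p.1).erase p.2) (upd Z p.1 p.2) - g5B n d k F Z) =
      ∑ p ∈ adm F forb Zp Zm, (gV2 ((F.erase p.1).erase p.2) (upd Z p.1 p.2) *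
        (sR n : ℝ) ^ 669 / (Nk n d k - 2) ^ 2 - gV2 F Z * (sR n : ℝ) ^ 669 / Nk n d k ^ 2) := by
    refine Finset.sum_congr rfl fun p _ => ?_
    unfold g5B
    rw [Nk_succ]
  rw [e1]
  refine h1.trans ?_
  rw [mul_assoc]
  refine mul_le_mul_of_nonneg_left ?_ (by norm_num)
  rw [div_le_iff₀ (by positivity), rT_III]
  have e2 : (sR n : ℝ) ^ 669 = Asm.Em (LL n) (XX n d k) 530 680 (4 * (669 : ℕ)) (4 * (669 : ℕ)) :=
    sR_pow_Em hσ (by norm_num) 669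
  have e3 : Nk n d k ^ 2 = Asm.Em (LL n) (XX n d k) 530 680 4240 5440 := by
    rw [Nk_III hN, Em_pow]; norm_num
  calc totB5 n d k * (sR n : ℝ) ^ 669
      ≤ (xErrB.cs (kapB5 d) * EB n d k 3680 5480) * (sR n : ℝ) ^ 669 :=
        mul_le_mul_of_nonneg_right t1 (by positivity)
    _ = xErrB.cs (kapB5 d) * Asm.Em (LL n) (XX n d k) 530 680 2116 2716 * Nk n d k ^ 2 := by
        rw [e2, e3, mul_assoc, mul_assoc, Em_mul, Em_mul]
        norm_num

end Vale.Agent.P049.TS.R379
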