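import Vale.Agent.P049.TS.Avg480.VA
import Vale.Agent.P049.TS.Q4.Q4
import Vale.Agent.P049.TS.Asm.GV2

/-!
Upper bound of the drift of `V₂ = Σ_F w_a²` over the admissible pairs with uniform weights, for
`ε tr Z ≤ 0` (exponent-free).
-/

set_option linter.unusedSectionVars false

namespace Vale.Agent.P049.TS.R379

open Matrix Finset
open Vale.Agent.P049.TS.A480 Vale.Agent.P049.TS.Asm

variable {ι : Type*} [Fintype ι] [DecidableEq ι]
variable {F : Finset ι} {Z Zp Zm : Matrix ι ι ℝ} {b t s v w r z n y : ℝ} {G : ℝ}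
variable {forb : ι → ι → Prop} {Δ e τ ε m : ℝ}

theorem Vt_zero (F : Finset ι) (Z : Matrix ι ι ℝ) : Vt 0 F Z = gV2 F Z := by
  unfold Vt gV2
  simp only [sub_zero]

/-- the `T₁`-term has a sign up to the bound `ε (Z³)_cc ≥ -m w_c - 1/N` -/
theorem T1_term (h : Sg F Z m ε) (hm0 : 0 ≤ m) (hm1 : m ≤ 1) (hε : ε = 1 ∨ ε = -1)
    (h1 : ε * Z.trace ≤ 0) :
    Z.trace * ∑ i ∈ F, (Z ^ 2) i i * (Z ^ 3) i i ≤
      |Z.trace| * (gV2 F Z + (Z ^ 2).trace) := by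
  have hN : (1 : ℝ) ≤ F.card := by exact_mod_cast h.card
  have hN0 : (0 : ℝ) < F.card := by linarith
  have hw : ∀ i, 0 ≤ (Z ^ 2) i i := fun i => by
    rw [Mat.sq_diag_eq_sum h.symm]
    exact Finset.sum_nonneg fun _ _ => sq_nonneg _
  have key : ∀ i ∈ F, -((Z ^ 2) i i + 1) ≤ ε * (Z ^ 3) i i := by
    intro i hi
    have h2 := h.diag 1 hi
    norm_num at h2
    have h3 : -1 ≤ (ε + m) / F.card := by
      rw [le_div_iff₀ hN0]
      rcases hε with rfl | rfl <;> nlinarith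
    have h4 := hw i
    have h5 : m * (Z ^ 2) i i ≤ 1 * (Z ^ 2) i i := mul_le_mul_of_nonneg_right hm1 h4
    linarith
  have e0 : ε * ε = 1 := by rcases hε with rfl | rfl <;> norm_num
  have ea : |Z.trace| = -(ε * Z.trace) := by
    rw [← abs_of_nonpos h1, abs_mul]
    rcases hε with rfl | rfl <;> norm_num
  have e1 : Z.trace * ∑ i ∈ F, (Z ^ 2) i i * (Z ^ 3) i i =
      |Z.trace| * ∑ i ∈ F, (Z ^ 2) i i * (-(ε * (Z ^ 3) i i)) := by
    have : ∑ i ∈ F, (Z ^ 2) i i * (-(ε * (Z ^ 3) i i)) =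
        -ε * ∑ i ∈ F, (Z ^ 2) i i * (Z ^ 3) i i := by
      rw [Finset.mul_sum]
      exact Finset.sum_congr rfl fun i _ => by ring
    rw [this, ea]
    calc Z.trace * ∑ i ∈ F, (Z ^ 2) i i * (Z ^ 3) i i
        = (ε * ε) * (Z.trace * ∑ i ∈ F, (Z ^ 2) i i * (Z ^ 3) i i) := by rw [e0, one_mul]
      _ = _ := by ring
  rw [e1]
  refine mul_le_mul_of_nonneg_left ?_ (abs_nonneg _)
  have supp : ∀ a, a ∉ F → ∀ b, Z a b = 0 := fun a ha b => h.supp a b (Or.inl ha)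
  have e2 : ∑ a ∈ F, (Z ^ 2) a a = (Z ^ 2).trace :=
    D12.sum_diag_F ((show D12.Supp F Z from supp).pow 1)
  have e3 : gV2 F Z + (Z ^ 2).trace = ∑ i ∈ F, (Z ^ 2) i i * ((Z ^ 2) i i + 1) := by
    rw [← e2]
    unfold gV2
    rw [← Finset.sum_add_distrib]
    exact Finset.sum_congr rfl fun i _ => by ring
  rw [e3]
  refine Finset.sum_le_sum fun i hi => mul_le_mul_of_nonneg_left ?_ (hw i)
  have := key i hi
  linarith

/-- **Upper bound of the drift of `V₂`**, uniform weights, `ε tr Z ≤ 0`. -/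
theorem V2_up (hp : Pr F Zp b t s v w r z n) (hm : Pr F Zm b t s v w r z n)
    (hf : ForbOK F forb Δ) (hZ : Z = Zp ∨ Z = Zm)
    (hG0 : 0 ≤ G) (hG : 1 + Δ + 128 * r ^ 2 + 128 * s ^ 4 ≤ G ^ 2)
    (he0 : 0 ≤ e) (he : (((F ×ˢ F) \ adm F forb Zp Zm).card : ℝ) ≤ e ^ 2)
    (hy0 : 0 ≤ y) (hy : z * r * w ≤ y ^ 2) (hsg : Sg F Z m ε) (hε : ε = 1 ∨ ε = -1)
    (hm0 : 0 ≤ m) (hm1 : m ≤ 1) (h1 : ε * Z.trace ≤ 0) (hτ : |Z.trace| ≤ τ) :
    ∑ p ∈ adm F forb Zp Zm,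
      (gV2 ((F.erase p.1).erase p.2) (upd Z p.1 p.2) - gV2 F Z) ≤
      -2 * (F.card : ℝ) * gV2 F Z + 4 * ((Z ^ 2).trace - F.card) * gV2 F Z +
      15 / 4 * (Q4 F Z * Vs F Z) +
      (2 * n * G * w ^ 2 + 8 * t ^ 2 + 8 * τ * (w ^ 2 + t ^ 2) + 8 * (e * (b * (w * w))) +
      2 * w * FE b t s v w r n G + (15 / 4 * (y ^ 2 * v ^ 2) + 210 * QB b s v w r z y)) := by
  have h : Pr F Z b t s v w r z n := by
    rcases hZ with rfl | rfl
    · exact hp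
    · exact hm
  have hV2 : gV2 F Z ≤ w ^ 2 := h.c.W
  have hVs : Vs F Z ≤ v ^ 2 := h.c.V
  have hT2 := h.c.T2
  have hw0 := h.c.w0
  have h2 := hp.V_drift_adm (k := (0 : Matrix ι ι ℝ)) (H := 0) hm hf hZ (HOK.zero F)
    (fun _ _ => rfl) hG0 (by rw [zero_pow two_ne_zero, add_zero]; exact hG) he0 he hy0 hy 0 hw0
    (by rw [Vt_zero]; exact hV2)
  simp only [Matrix.zero_apply, sub_zero, one_mul, zero_mul, Matrix.mul_zero, Matrix.zero_mul,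
    mul_zero, Finset.sum_const_zero] at h2
  have e1 : ∑ p ∈ adm F forb Zp Zm,
      (Vt 0 ((F.erase p.1).erase p.2) (upd Z p.1 p.2) - Vt 0 F Z) =
      ∑ p ∈ adm F forb Zp Zm,
      (gV2 ((F.erase p.1).erase p.2) (upd Z p.1 p.2) - gV2 F Z) :=
    Finset.sum_congr rfl fun p _ => by rw [Vt_zero, Vt_zero]
  have e2 : ∑ i ∈ F, (Z ^ 2) i i * (Z ^ 2) i i = gV2 F Z := by
    unfold gV2
    exact Finset.sum_congr rfl fun i _ => by ring
  rw [e1, Vt_zero, e2] at h2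
  have h3 := T1_term hsg hm0 hm1 hε h1
  have hg0 : 0 ≤ gV2 F Z := Finset.sum_nonneg fun _ _ => sq_nonneg _
  have hT0 : 0 ≤ (Z ^ 2).trace := by
    rw [← Mat.frob_eq_trace_sq h.c.symm]; exact Mat.frob_nonneg _
  have h4 : |Z.trace| * (gV2 F Z + (Z ^ 2).trace) ≤ τ * (w ^ 2 + t ^ 2) :=
    mul_le_mul hτ (add_le_add hV2 hT2) (by linarith) ((abs_nonneg _).trans hτ)
  have h5 : n * G * gV2 F Z ≤ n * G * w ^ 2 :=
    mul_le_mul_of_nonneg_left hV2 (mul_nonneg h.n0 hG0)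
  have h6 : y ^ 2 * Vs F Z ≤ y ^ 2 * v ^ 2 := mul_le_mul_of_nonneg_left hVs (sq_nonneg y)
  have e3 : 4 * (((Z ^ 2).trace - F.card) * gV2 F Z) =
      4 * ((Z ^ 2).trace - F.card) * gV2 F Z := by ring
  rw [e3] at h2
  have e4 : -2 * ((F.card : ℝ) - n * G) * gV2 F Z =
      -2 * (F.card : ℝ) * gV2 F Z + 2 * (n * G * gV2 F Z) := by ring
  have hQ : A480.Q4 F Z = Q4 F Z := rfl
  rw [e4, hQ] at h2
  linarith

/-- the bound of `Q₄` -/
noncomputable def QW (t s w i : ℝ) : ℝ :=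
  t ^ 2 + 2 * (s * w) + s ^ 2 * w + s ^ 4 + 2 * i * (3 * t ^ 2 + 2 * (s * w) + w ^ 2)

theorem Q4_le_QW (h : D12.Ctl F Z b t s v w) (hsg : Sg F Z m ε) (hε : ε = 1 ∨ ε = -1)
    (hm0 : 0 < m) (hm1 : m < 1) : Q4 F Z ≤ QW t s w (F.card : ℝ)⁻¹ := by
  have h1 := hsg.Q4_le_W hε hm0 hm1 h.s0 h.w0 h.S h.W
  have hT0 : 0 ≤ (Z ^ 2).trace := by
    rw [← Mat.frob_eq_trace_sq h.symm]; exact Mat.frob_nonneg _
  have hT2 := h.T2
  have hsw : 0 ≤ s * w := mul_nonneg h.s0 h.w0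
  have hN : (0 : ℝ) < F.card := by exact_mod_cast hsg.card
  have a1 : m ^ 2 * (Z ^ 2).trace ≤ t ^ 2 := by
    have : m ^ 2 ≤ 1 := pow_le_one₀ hm0.le hm1.le
    nlinarith
  have a2 : 2 * m * (s * w) ≤ 2 * (s * w) := by nlinarith
  have a3 : 2 / (F.card : ℝ) * (3 * (Z ^ 2).trace + 2 * (s * w) + w ^ 2) ≤
      2 * (F.card : ℝ)⁻¹ * (3 * t ^ 2 + 2 * (s * w) + w ^ 2) := by
    rw [div_eq_mul_inv]
    refine mul_le_mul_of_nonneg_left (by linarith) ?_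
    positivity
  unfold QW
  linarith

end Vale.Agent.P049.TS.R379
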