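import Vale.Agent.P049.TS.Avg480.VD
import Vale.Agent.P049.TS.Asm.Expo
import Vale.Agent.P049.TS.R379.V2up

/-!
The error polynomial of `V2_up` as an expression of `Asm/Expo`.
-/

set_option linter.unusedSectionVars false

namespace Vale.Agent.P049.TS.R379

open Vale.Agent.P049.TS.A480 Vale.Agent.P049.TS.Asm

section
variable (b t s v w r z n G y e τ i : Ex)

/-- `100 KB` -/
def KBE : Ex :=
  400 * ((t + s ^ 2) * b) + 800 * ((r * s + s ^ 3) * b) + 256 * (s ^ 2 * r ^ 2) + 480 * (v * s) +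
    500 * ((r + s ^ 2) * v) + 480 * (b * r * s) + 260 * b ^ 2

/-- `100 K2` -/
def K2E : Ex := 200 * ((r + s ^ 2) * w) + 225 * (b * r * s) + 100 * (r * v) + 100 * (s ^ 2 * v)

/-- `100 FE` -/
def FEE : Ex :=
  400 * (G * s * (b * w)) + 200 * (G * v * w) + 3 * (KBE b t s v r * w + n * K2E b s v w r)

/-- `100 QB` -/
def QBE : Ex :=
  900 * (b ^ 2 * w ^ 2) + 1600 * (s ^ 2 * (r ^ 2 * w ^ 2)) +
    656 * ((s ^ 2 * s ^ 2) * (z ^ 2 * (r ^ 2 * v ^ 2))) +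
    2304 * ((z ^ 2 * s ^ 2) * (r ^ 2 * v ^ 2)) +
    5000 * (v ^ 2 * (z ^ 2 * (z * r * w))) + 5000 * ((s ^ 2 * v ^ 2) * (s ^ 2 * (z ^ 2 * r ^ 2))) +
    2304 * ((z ^ 2 * w ^ 2) * (r ^ 2 * s ^ 2)) +
    676 * ((b ^ 2 + s * w) * (w ^ 2 + s * (w * y)))

/-- `QW` -/
def QWE : Ex :=
  t ^ 2 + 2 * (s * w) + s ^ 2 * w + s ^ 4 + 2 * i * (3 * t ^ 2 + 2 * (s * w) + w ^ 2)

/-- `100 ×` the error of `V2_up` -/
def RestE : Ex :=
  200 * n * G * w ^ 2 + 800 * t ^ 2 + 800 * τ * (w ^ 2 + t ^ 2) + 800 * (e * (b * (w * w))) +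
      2 * w * FEE b t s v w r n G + (375 * (y ^ 2 * v ^ 2) + 210 * QBE b s v w r z y)

/-- `100 ×` the whole error in the phase IIIb -/
def ErrBE : Ex := 400 * (t ^ 2 * w ^ 2) + 375 * (QWE t s w i * v ^ 2) +
  RestE b t s v w r z n G y e τ
end

/-- the environment -/
def env13 {α : Type*} (o b t s v w r z n G y e τ i : α) : ℕ → α
  | 0 => b | 1 => t | 2 => s | 3 => v | 4 => w | 5 => r | 6 => z | 7 => n | 8 => G | 9 => y
  | 10 => e | 11 => τ | 12 => i | _ => o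

/-- the error polynomial of the phase IIIb -/
def xErrB : Ex :=
  ErrBE (.v 0) (.v 1) (.v 2) (.v 3) (.v 4) (.v 5) (.v 6) (.v 7) (.v 8) (.v 9) (.v 10) (.v 11)
    (.v 12)

variable (b t s v w r z n G y e τ i : ℝ)

/-- the error of `V2_up` without the `Q₄`-term -/
noncomputable def Rest (b t s v w r z n G y e τ : ℝ) : ℝ :=
  2 * n * G * w ^ 2 + 8 * t ^ 2 + 8 * τ * (w ^ 2 + t ^ 2) + 8 * (e * (b * (w * w))) +
      2 * w * FE b t s v w r n G + (15 / 4 * (y ^ 2 * v ^ 2) + 210 * QB b s v w r z y)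

theorem ErrB_ev : 100 * (4 * (t ^ 2 * w ^ 2) + 15 / 4 * (QW t s w i * v ^ 2) +
    Rest b t s v w r z n G y e τ) = xErrB.ev (env13 0 b t s v w r z n G y e τ i) := by
  simp only [xErrB, ErrBE, RestE, QWE, QBE, FEE, K2E, KBE, Ex.ev_add, Ex.ev_mul, Ex.ev_pow,
    Ex.ev_ofNat, Ex.ev_v, env13, Rest, QW, FE, KB, K2, QB]
  push_cast
  ring

/-- exponents (times 4) at `N = σ^530` -/
def yB1 : ℕ → ℤ := env13 0 727 752 (-88) 1060 782 530 0 1060 530 656 1060 940 (-2120)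
/-- exponents (times 4) at `N = σ^680` -/
def yB2 : ℕ → ℤ := env13 0 1327 1352 212 1384 1382 692 212 1360 692 1143 1360 1540 (-2720)

theorem xErrB_y1 : xErrB.y yB1 ≤ 3680 := by decide
theorem xErrB_y2 : xErrB.y yB2 ≤ 5480 := by decide

end Vale.Agent.P049.TS.R379
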